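import Mathlib
import Vale.Agent.Results.P249.A0_NLogN

/-!
# P249: from `n` points of a general `L_p(μ)` to `n` points of some `ℓ_p^m`

Finitely many elements of `L_p(μ)` are approximated by simple functions; finitely many simple functions live
isometrically in a weighted `ℓ_p^m` (coordinates = values of the joint simple function).
-/

open MeasureTheory
open scoped ENNReal

namespace Vale.Agent.P249.LpRed

open Vale.Agent.Results.P249.A0_NLogN (lpDist)

universe u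

variable {α : Type u} [MeasurableSpace α] {μ : Measure α}

/-- the joint simple function `a ↦ (s i a)_i` -/
def joint {n : ℕ} (s : Fin n → SimpleFunc α ℝ) : SimpleFunc α (Fin n → ℝ) where
  toFun a i := s i a
  measurableSet_fiber' y := by
    have e : (fun a i => s i a) ⁻¹' {y} = ⋂ i, (s i) ⁻¹' {y i} := by
      ext a
      simp [funext_iff]
    rw [e]
    exact MeasurableSet.iInter (fun i => (s i).measurableSet_fiber (y i))
  finite_range' := by
    refine (Set.Finite.pi (fun i => (s i).finite_range)).subset ?_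
    rintro _ ⟨a, rfl⟩
    intro i _
    exact ⟨a, rfl⟩

/-- (P2) `((joint s).map φ).lintegral_eq_lintegral`, `SimpleFunc.map_lintegral`; `(joint s) a = fun i => s i a` is `rfl`. -/
lemma lintegral_joint {n : ℕ} (s : Fin n → SimpleFunc α ℝ) (φ : (Fin n → ℝ) → ℝ≥0∞) :
    ∫⁻ a, φ (fun i => s i a) ∂μ = ∑ y ∈ (joint s).range, φ y * μ ((joint s) ⁻¹' {y}) := by
  have h1 := ((joint s).map φ).lintegral_eq_lintegral μ
  rw [SimpleFunc.map_lintegral] at h1
  rw [← h1]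
  rfl

/-- (P3) if `y i ≠ 0` the fibre of `joint s` over `y` lies in the fibre of `s i` over `y i`, which has finite measure:
`SimpleFunc.measure_preimage_lt_top_of_memLp`, `measure_mono`. -/
lemma fibre_lt_top {n : ℕ} (s : Fin n → SimpleFunc α ℝ) (P : ℝ≥0∞) (hP0 : P ≠ 0) (hPt : P ≠ ∞)
    (hs : ∀ i, MemLp (s i) P μ) (y : Fin n → ℝ) (i : Fin n) (hy : y i ≠ 0) :
    μ ((joint s) ⁻¹' {y}) < ∞ := by
  refine lt_of_le_of_lt (measure_mono ?_)
    (SimpleFunc.measure_preimage_lt_top_of_memLp hP0 hPt (s i) (hs i) (y i) hy)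
  intro a ha
  have h : (joint s) a = y := ha
  show s i a = y i
  rw [← h]
  rfl

/-- (P4) real form of P2 for `φ y = ‖y i - y j‖ₑ ^ p`.  `ENNReal.toReal_sum` (every term is finite: if `y i = y j` it is
`0 ^ p * _ = 0`, otherwise `y i ≠ 0` or `y j ≠ 0` and P3 applies), `ENNReal.toReal_mul`, `ENNReal.toReal_rpow`,
`toReal_enorm`, `Real.norm_eq_abs`. -/
lemma toReal_lintegral_sub {n : ℕ} (s : Fin n → SimpleFunc α ℝ) (p : ℝ) (hp : 1 ≤ p)
    (hs : ∀ i, MemLp (s i) (ENNReal.ofReal p) μ) (i j : Fin n) :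
    (∫⁻ a, ‖s i a - s j a‖ₑ ^ p ∂μ).toReal =
      ∑ y ∈ (joint s).range, |y i - y j| ^ p * (μ ((joint s) ⁻¹' {y})).toReal := by
  have hp0 : 0 < p := by linarith
  have hP0 : ENNReal.ofReal p ≠ 0 := by
    rw [Ne, ENNReal.ofReal_eq_zero, not_le]
    exact hp0
  have e := lintegral_joint (μ := μ) s (fun y => ‖y i - y j‖ₑ ^ p)
  simp only at e
  rw [e, ENNReal.toReal_sum]
  · apply Finset.sum_congr rfl
    intro y _
    rw [ENNReal.toReal_mul, ← ENNReal.toReal_rpow, toReal_enorm, Real.norm_eq_abs]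
  · intro y _
    by_cases hy : y i = y j
    · rw [hy, sub_self, enorm_zero, ENNReal.zero_rpow_of_pos hp0, zero_mul]
      exact ENNReal.zero_ne_top
    · have hfin : μ ((joint s) ⁻¹' {y}) < ∞ := by
        by_cases hi : y i = 0
        · have hj : y j ≠ 0 := fun h => hy (by rw [hi, h])
          exact fibre_lt_top s _ hP0 ENNReal.ofReal_ne_top hs y j hj
        · exact fibre_lt_top s _ hP0 ENNReal.ofReal_ne_top hs y i hi
      exact ENNReal.mul_ne_top (ENNReal.rpow_ne_top_of_nonneg hp0.le enorm_ne_top) hfin.ne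

/-- (P5) the norm of a difference of two elements of `Lp.simpleFunc`.  `Lp.norm_def`,
`eLpNorm_congr_ae` (`Lp.coeFn_sub`, `Lp.simpleFunc.toSimpleFunc_eq_toFun`),
`eLpNorm_eq_lintegral_rpow_enorm` (exponent `ENNReal.ofReal p`, `ENNReal.toReal_ofReal`), `ENNReal.toReal_rpow`. -/
lemma norm_sub_simpleFunc (p : ℝ) (hp : 1 ≤ p) (g h : Lp.simpleFunc ℝ (ENNReal.ofReal p) μ) :
    ‖(g : Lp ℝ (ENNReal.ofReal p) μ) - (h : Lp ℝ (ENNReal.ofReal p) μ)‖ =
      ((∫⁻ a, ‖Lp.simpleFunc.toSimpleFunc g a - Lp.simpleFunc.toSimpleFunc h a‖ₑ ^ p ∂μ).toReal) ^ (1 / p) := by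
  have hp0 : 0 < p := by linarith
  have hP0 : ENNReal.ofReal p ≠ 0 := by
    rw [Ne, ENNReal.ofReal_eq_zero, not_le]
    exact hp0
  rw [Lp.norm_def]
  have hae : (((g : Lp ℝ (ENNReal.ofReal p) μ) - (h : Lp ℝ (ENNReal.ofReal p) μ) : Lp ℝ (ENNReal.ofReal p) μ) : α → ℝ)
      =ᵐ[μ] fun a => Lp.simpleFunc.toSimpleFunc g a - Lp.simpleFunc.toSimpleFunc h a := by
    filter_upwards [Lp.coeFn_sub (g : Lp ℝ (ENNReal.ofReal p) μ) (h : Lp ℝ (ENNReal.ofReal p) μ),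
      Lp.simpleFunc.toSimpleFunc_eq_toFun g, Lp.simpleFunc.toSimpleFunc_eq_toFun h] with a h1 h2 h3
    rw [h1, Pi.sub_apply, h2, h3]
  rw [eLpNorm_congr_ae hae, eLpNorm_eq_lintegral_rpow_enorm_toReal hP0 ENNReal.ofReal_ne_top,
    ENNReal.toReal_ofReal hp0.le, ENNReal.toReal_rpow]

/-- (P6) a finite weighted sum is an `ℓ_p^m` distance.  `m = R.card`, `e = R.equivFin`,
`z i t = (e.symm t).1 i * w (e.symm t).1 ^ (1 / p)`;  `|a c - b c| ^ p = |a - b| ^ p * w` for `c = w ^ (1/p)`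
(`← sub_mul`, `abs_mul`, `Real.mul_rpow`, `abs_of_nonneg`, `← Real.rpow_mul`);  `Equiv.sum_comp e.symm`,
`Finset.sum_coe_sort`. -/
lemma exists_vectors {n : ℕ} (p : ℝ) (hp : 1 ≤ p) (R : Finset (Fin n → ℝ)) (w : (Fin n → ℝ) → ℝ)
    (hw : ∀ y, 0 ≤ w y) :
    ∃ (m : ℕ) (z : Fin n → Fin m → ℝ), ∀ i j,
      lpDist p (z i) (z j) = (∑ y ∈ R, |y i - y j| ^ p * w y) ^ (1 / p) := by
  have hp0 : p ≠ 0 := by linarith
  refine ⟨R.card, fun i t => (R.equivFin.symm t).1 i * w (R.equivFin.symm t).1 ^ (1 / p), ?_⟩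
  intro i j
  unfold lpDist
  congr 1
  have key : ∀ y : Fin n → ℝ,
      |y i * w y ^ (1 / p) - y j * w y ^ (1 / p)| ^ p = |y i - y j| ^ p * w y := by
    intro y
    rw [← sub_mul, abs_mul, Real.mul_rpow (abs_nonneg _) (abs_nonneg _),
      abs_of_nonneg (Real.rpow_nonneg (hw y) _), ← Real.rpow_mul (hw y),
      one_div_mul_cancel hp0, Real.rpow_one]
  simp only [key]
  rw [Equiv.sum_comp R.equivFin.symm (fun y : R => |y.1 i - y.1 j| ^ p * w y.1)]
  exact Finset.sum_coe_sort R (fun y => |y i - y j| ^ p * w y)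

/-- (P7) finitely many simple functions live isometrically in some `ℓ_p^m`: P6 with `R = (joint s).range`,
`w y = (μ (joint s ⁻¹' {y})).toReal`, `s i = toSimpleFunc (g i)` (`Lp.simpleFunc.memLp`), P5, P4. -/
lemma exists_isometric {n : ℕ} (p : ℝ) (hp : 1 ≤ p) (g : Fin n → Lp.simpleFunc ℝ (ENNReal.ofReal p) μ) :
    ∃ (m : ℕ) (z : Fin n → Fin m → ℝ), ∀ i j,
      lpDist p (z i) (z j) =
        ‖(g i : Lp ℝ (ENNReal.ofReal p) μ) - (g j : Lp ℝ (ENNReal.ofReal p) μ)‖ := by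
  obtain ⟨m, z, hz⟩ := exists_vectors p hp
    (joint (fun i => Lp.simpleFunc.toSimpleFunc (g i))).range
    (fun y => (μ ((joint (fun i => Lp.simpleFunc.toSimpleFunc (g i))) ⁻¹' {y})).toReal)
    (fun y => ENNReal.toReal_nonneg)
  refine ⟨m, z, fun i j => ?_⟩
  rw [hz i j, norm_sub_simpleFunc p hp (g i) (g j),
    toReal_lintegral_sub (fun i => Lp.simpleFunc.toSimpleFunc (g i)) p hp
      (fun i => Lp.simpleFunc.memLp (g i)) i j]

/-- (P8) density of the simple functions: `Lp.simpleFunc.denseRange` (`ENNReal.ofReal_ne_top`) with the instance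
`Fact (1 ≤ ENNReal.ofReal p)`, `DenseRange.exists_dist_lt`, `dist_eq_norm`. -/
lemma exists_simple_near (p : ℝ) (hp : 1 ≤ p) (ε : ℝ) (hε : 0 < ε) (h : Lp ℝ (ENNReal.ofReal p) μ) :
    ∃ g : Lp.simpleFunc ℝ (ENNReal.ofReal p) μ, ‖h - (g : Lp ℝ (ENNReal.ofReal p) μ)‖ ≤ ε := by
  have : Fact (1 ≤ ENNReal.ofReal p) := ⟨by
    rw [← ENNReal.ofReal_one]; exact ENNReal.ofReal_le_ofReal hp⟩
  obtain ⟨g, hg⟩ := (Lp.simpleFunc.denseRange (E := ℝ) (μ := μ) (p := ENNReal.ofReal p)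
    ENNReal.ofReal_ne_top).exists_dist_lt h hε
  exact ⟨g, by rw [← dist_eq_norm]; exact hg.le⟩

/-- (P9) a positive lower bound for the nonzero distances (finite set: e.g. the minimum over the finite set of pairs
with `f i ≠ f j`, or `1` if there is none; `norm_pos_iff`, `sub_ne_zero` with the instance `Fact (1 ≤ ENNReal.ofReal p)`). -/
lemma exists_sep {n : ℕ} (p : ℝ) (hp : 1 ≤ p) (f : Fin n → Lp ℝ (ENNReal.ofReal p) μ) :
    ∃ δ : ℝ, 0 < δ ∧ ∀ i j, f i ≠ f j → δ ≤ ‖f i - f j‖ := by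
  classical
  have hfact : Fact (1 ≤ ENNReal.ofReal p) := ⟨by
    rw [← ENNReal.ofReal_one]
    exact ENNReal.ofReal_le_ofReal hp⟩
  set S : Finset (Fin n × Fin n) := Finset.univ.filter (fun q => f q.1 ≠ f q.2) with hS
  by_cases hne : S.Nonempty
  · obtain ⟨q, hq, hmin⟩ := Finset.exists_min_image S (fun q => ‖f q.1 - f q.2‖) hne
    refine ⟨‖f q.1 - f q.2‖, ?_, ?_⟩
    · rw [norm_pos_iff, sub_ne_zero]
      exact (Finset.mem_filter.mp hq).2
    · intro i j hij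
      exact hmin (i, j) (Finset.mem_filter.mpr ⟨Finset.mem_univ _, hij⟩)
  · refine ⟨1, one_pos, ?_⟩
    intro i j hij
    exact absurd ⟨(i, j), Finset.mem_filter.mpr ⟨Finset.mem_univ _, hij⟩⟩ hne

/-- (P10) homogeneity of `lpDist` (`← mul_sub`, `abs_mul`, `Real.mul_rpow`, `← Finset.mul_sum`, `← Real.rpow_mul`). -/
lemma lpDist_smul (p : ℝ) (hp : 1 ≤ p) {m : ℕ} (c : ℝ) (hc : 0 ≤ c) (u v : Fin m → ℝ) :
    lpDist p (fun k => c * u k) (fun k => c * v k) = c * lpDist p u v := by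
  unfold lpDist
  have hp0 : p ≠ 0 := by linarith
  have h1 : ∀ k, |c * u k - c * v k| ^ p = c ^ p * |u k - v k| ^ p := by
    intro k
    rw [← mul_sub, abs_mul, abs_of_nonneg hc, Real.mul_rpow hc (abs_nonneg _)]
  simp only [h1]
  rw [← Finset.mul_sum, Real.mul_rpow (Real.rpow_nonneg hc _)
    (Finset.sum_nonneg fun k _ => Real.rpow_nonneg (abs_nonneg _) _), ← Real.rpow_mul hc,
    mul_one_div_cancel hp0, Real.rpow_one]

/-- (P11) `n` points of `L_p(μ)` embed into some `ℓ_p^m` with distortion `D₂`, for every `D₂ > 1`.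
Let `η = (D₂ - 1) / (D₂ + 1)` (so `0 < η < 1` and `(1 + η) / (1 - η) = D₂`), `δ` from P9, `ε = η δ / 2`; choose by P8 a function
`A` on `Lp` with `‖h - A h‖ ≤ ε`, `g i = A (f i)`, `z` from P7, `x i k = (1 - η)⁻¹ * z i k` (P10).
If `f i = f j` then `g i = g j` and both sides vanish.  Otherwise `a = ‖f i - f j‖ ≥ δ` and
`|‖g i - g j‖ - a| ≤ 2 ε = η δ ≤ η a` (triangle inequality in `Lp`, instance `Fact (1 ≤ ENNReal.ofReal p)`). -/
lemma exists_almost_isometric {n : ℕ} (p : ℝ) (hp : 1 ≤ p) (D₂ : ℝ) (hD : 1 < D₂)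
    (f : Fin n → Lp ℝ (ENNReal.ofReal p) μ) :
    ∃ (m : ℕ) (x : Fin n → Fin m → ℝ), ∀ i j,
      ‖f i - f j‖ ≤ lpDist p (x i) (x j) ∧ lpDist p (x i) (x j) ≤ D₂ * ‖f i - f j‖ := by
  haveI : Fact (1 ≤ ENNReal.ofReal p) := ⟨by
    rw [← ENNReal.ofReal_one]
    exact ENNReal.ofReal_le_ofReal hp⟩
  set η : ℝ := (D₂ - 1) / (D₂ + 1) with hη
  have hD1 : 0 < D₂ + 1 := by linarith
  have hη0 : 0 < η := div_pos (by linarith) hD1
  have hη1 : η < 1 := by
    rw [hη, div_lt_one hD1]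
    linarith
  have hηD : (1 + η) = D₂ * (1 - η) := by
    rw [hη]
    field_simp
    ring
  obtain ⟨δ, hδ, hsep⟩ := exists_sep p hp f
  have hε : 0 < η * δ / 2 := by positivity
  choose A hA using fun h : Lp ℝ (ENNReal.ofReal p) μ => exists_simple_near p hp (η * δ / 2) hε h
  obtain ⟨m, z, hz⟩ := exists_isometric p hp (fun i => A (f i))
  have h1η : 0 < 1 - η := by linarith
  refine ⟨m, fun i k => (1 - η)⁻¹ * z i k, fun i j => ?_⟩
  rw [lpDist_smul p hp (1 - η)⁻¹ (inv_nonneg.2 h1η.le) (z i) (z j), hz i j]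
  by_cases hij : f i = f j
  · simp [hij]
  · have ha := hsep i j hij
    set a : ℝ := ‖f i - f j‖ with hadef
    set G : ℝ := ‖((A (f i) : Lp.simpleFunc ℝ (ENNReal.ofReal p) μ) : Lp ℝ (ENNReal.ofReal p) μ) -
      ((A (f j) : Lp.simpleFunc ℝ (ENNReal.ofReal p) μ) : Lp ℝ (ENNReal.ofReal p) μ)‖ with hG
    have hi := hA (f i)
    have hj := hA (f j)
    have t1 : a ≤ G + η * δ := by
      have e : f i - f j = (f i - (A (f i) : Lp ℝ (ENNReal.ofReal p) μ)) +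
          (((A (f i) : Lp ℝ (ENNReal.ofReal p) μ)) - (A (f j) : Lp ℝ (ENNReal.ofReal p) μ)) -
          (f j - (A (f j) : Lp ℝ (ENNReal.ofReal p) μ)) := by abel
      have := calc a = ‖(f i - (A (f i) : Lp ℝ (ENNReal.ofReal p) μ)) +
          (((A (f i) : Lp ℝ (ENNReal.ofReal p) μ)) - (A (f j) : Lp ℝ (ENNReal.ofReal p) μ)) -
          (f j - (A (f j) : Lp ℝ (ENNReal.ofReal p) μ))‖ := by rw [hadef, ← e]
        _ ≤ ‖(f i - (A (f i) : Lp ℝ (ENNReal.ofReal p) μ)) +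
          (((A (f i) : Lp ℝ (ENNReal.ofReal p) μ)) - (A (f j) : Lp ℝ (ENNReal.ofReal p) μ))‖ +
          ‖f j - (A (f j) : Lp ℝ (ENNReal.ofReal p) μ)‖ := norm_sub_le _ _
        _ ≤ ‖f i - (A (f i) : Lp ℝ (ENNReal.ofReal p) μ)‖ + G +
          ‖f j - (A (f j) : Lp ℝ (ENNReal.ofReal p) μ)‖ := by
            gcongr
            exact norm_add_le _ _
      linarith
    have t2 : G ≤ a + η * δ := by
      have e : ((A (f i) : Lp ℝ (ENNReal.ofReal p) μ)) - (A (f j) : Lp ℝ (ENNReal.ofReal p) μ) =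
          (f j - (A (f j) : Lp ℝ (ENNReal.ofReal p) μ)) + (f i - f j) -
          (f i - (A (f i) : Lp ℝ (ENNReal.ofReal p) μ)) := by abel
      have := calc G = ‖(f j - (A (f j) : Lp ℝ (ENNReal.ofReal p) μ)) + (f i - f j) -
          (f i - (A (f i) : Lp ℝ (ENNReal.ofReal p) μ))‖ := by rw [hG, ← e]
        _ ≤ ‖(f j - (A (f j) : Lp ℝ (ENNReal.ofReal p) μ)) + (f i - f j)‖ +
          ‖f i - (A (f i) : Lp ℝ (ENNReal.ofReal p) μ)‖ := norm_sub_le _ _
        _ ≤ ‖f j - (A (f j) : Lp ℝ (ENNReal.ofReal p) μ)‖ + a +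
          ‖f i - (A (f i) : Lp ℝ (ENNReal.ofReal p) μ)‖ := by
            gcongr
            exact norm_add_le _ _
      linarith
    have hηδ : η * δ ≤ η * a := mul_le_mul_of_nonneg_left ha hη0.le
    constructor
    · rw [inv_mul_eq_div, le_div_iff₀ h1η]
      nlinarith
    · rw [inv_mul_eq_div, div_le_iff₀ h1η]
      have : G ≤ (1 + η) * a := by nlinarith
      calc G ≤ (1 + η) * a := this
        _ = D₂ * a * (1 - η) := by rw [hηD]; ring

/-- the theorem for a general `L_p(μ)` -/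
theorem main_Lp (p : ℝ) (hp : 1 ≤ p) (D : ℝ) (hD : 1 < D) :
    ∃ C : ℝ, ∀ (β : Type u) [MeasurableSpace β] (ν : Measure β) (n : ℕ), 2 ≤ n →
      ∀ f : Fin n → Lp ℝ (ENNReal.ofReal p) ν,
      ∃ (d : ℕ) (F : Fin n → Fin d → ℝ), (d : ℝ) ≤ C * n * Real.log n ∧
        ∀ i j, ‖f i - f j‖ ≤ lpDist p (F i) (F j) ∧ lpDist p (F i) (F j) ≤ D * ‖f i - f j‖ := by
  have hs1 : 1 < Real.sqrt D := by
    rw [show (1 : ℝ) = Real.sqrt 1 by simp]
    exact Real.sqrt_lt_sqrt (by norm_num) hD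
  have hss : Real.sqrt D * Real.sqrt D = D := Real.mul_self_sqrt (by linarith)
  obtain ⟨C, hC⟩ := Vale.Agent.Results.P249.A0_NLogN.result p hp (Real.sqrt D) hs1
  refine ⟨C, ?_⟩
  intro β _ ν n hn f
  obtain ⟨m, x, hx⟩ := exists_almost_isometric p hp (Real.sqrt D) hs1 f
  obtain ⟨d, κ, c, hd, h⟩ := hC n hn m x
  refine ⟨d, fun i t => c t * x i (κ t), hd, fun i j => ?_⟩
  obtain ⟨h1, h2⟩ := h i j
  obtain ⟨h3, h4⟩ := hx i j
  refine ⟨le_trans h3 h1, le_trans h2 ?_⟩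
  calc Real.sqrt D * lpDist p (x i) (x j) ≤ Real.sqrt D * (Real.sqrt D * ‖f i - f j‖) :=
        mul_le_mul_of_nonneg_left h4 (by linarith)
    _ = D * ‖f i - f j‖ := by rw [← mul_assoc, hss]

end Vale.Agent.P249.LpRed
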